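import Vale.Agent.P197.TS.Spec

/-!
# The sign twist of Specht modules (P197, block TW)
-/

namespace Vale.Agent.P197.TS.H856

open Equiv Finset Vale.Agent.P197 Vale.Agent.P197.TS

noncomputable section

variable {X : Type} [Fintype X] [DecidableEq X]

/-- The image of the word `f` under the sign twist given by the labels `R`, `C`. -/
def twW (R C f : X → ℕ) : WM X :=
  ∑ s ∈ univ.filter (fun s : Perm X => ∀ x, R (s x) = f x),
    ((Perm.sign s : ℤ) : ℂ) • Finsupp.single (C ∘ ⇑s) (1 : ℂ)

/-- The sign twist. -/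
def tw (R C : X → ℕ) : WM X →ₗ[ℂ] WM X := Finsupp.linearCombination ℂ (twW R C)

theorem sign_sq (g : Perm X) : ((Perm.sign g : ℤ) : ℂ) * ((Perm.sign g : ℤ) : ℂ) = 1 := by
  rcases Int.units_eq_one_or (Perm.sign g) with h | h <;> simp [h]

theorem twW_comp (R C f : X → ℕ) (g : Perm X) :
    twW R C (f ∘ ⇑(g⁻¹ : Perm X)) =
      ((Perm.sign g : ℤ) : ℂ) • wordRep X g (twW R C f) := by
  unfold twW
  rw [map_sum, Finset.smul_sum]
  refine Finset.sum_bij' (fun s _ => s * g) (fun s _ => s * g⁻¹) ?_ ?_ ?_ ?_ ?_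
  · intro s hs
    rw [mem_filter] at hs ⊢
    refine ⟨mem_univ _, fun x => ?_⟩
    have := hs.2 (g x)
    simpa using this
  · intro s hs
    rw [mem_filter] at hs ⊢
    refine ⟨mem_univ _, fun x => ?_⟩
    have := hs.2 (g⁻¹ x)
    simpa using this
  · intro s _
    simp
  · intro s _
    simp
  · intro s _
    rw [map_smul, wordRep_single, smul_smul]
    have h1 : ((Perm.sign g : ℤ) : ℂ) * ((Perm.sign (s * g) : ℤ) : ℂ) =
        ((Perm.sign s : ℤ) : ℂ) := by
      rw [Perm.sign_mul]
      push_cast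
      rw [mul_comm, mul_assoc, sign_sq, mul_one]
    rw [h1]
    congr 2
    funext x
    simp

theorem tw_wordRep (R C : X → ℕ) (g : Perm X) (v : WM X) :
    tw R C (wordRep X g v) = ((Perm.sign g : ℤ) : ℂ) • wordRep X g (tw R C v) := by
  induction v using Finsupp.induction_linear with
  | zero => simp
  | add v w hv hw => rw [map_add, map_add, hv, hw, map_add, map_add, smul_add]
  | single f a =>
    rw [wordRep_single]
    simp only [tw, Finsupp.linearCombination_single]
    rw [twW_comp, map_smul, smul_comm]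

/-- The cells of the transpose. -/
def trE (mu : YoungDiagram) : mu.cells ≃ mu.transpose.cells where
  toFun c := ⟨c.1.swap, by
    have := c.2
    rw [YoungDiagram.mem_cells] at this ⊢
    rw [YoungDiagram.mem_transpose]
    simp [this]⟩
  invFun c := ⟨c.1.swap, by
    have := c.2
    rw [YoungDiagram.mem_cells] at this ⊢
    rw [YoungDiagram.mem_transpose] at this
    exact this⟩
  left_inv c := by simp
  right_inv c := by simp

theorem twW_mem (mu : YoungDiagram) (t : X ≃ mu.cells) (f : X → ℕ) :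
    twW (fun x => (t x).1.1) (fun x => (t x).1.2) f ∈ Sp X mu.transpose := by
  by_cases h : ∃ s : Perm X, ∀ x, (t (s x)).1.1 = f x
  · obtain ⟨s, hs⟩ := h
    have key : twW (fun x => (t x).1.1) (fun x => (t x).1.2) f =
        ((Perm.sign s : ℤ) : ℂ) • polyt f (fun x => (t (s x)).1.2) := by
      unfold twW polyt
      rw [Finset.smul_sum]
      refine Finset.sum_bij' (fun s' _ => s'⁻¹ * s) (fun π _ => s * π⁻¹) ?_ ?_ ?_ ?_ ?_
      · intro s' hs'
        rw [mem_filter] at hs'
        rw [mem_stab]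
        intro x
        have h1 := hs'.2 (s'⁻¹ (s x))
        simp only [Perm.mul_apply]
        rw [← h1]
        simpa using hs x
      · intro π hπ
        rw [mem_stab] at hπ
        rw [mem_filter]
        refine ⟨mem_univ _, fun x => ?_⟩
        simp only [Perm.mul_apply]
        rw [hs]
        have := hπ (π⁻¹ x)
        simpa using this.symm
      · intro s' _
        simp
      · intro π _
        simp
      · intro s' _
        rw [smul_smul]
        have h1 : ((Perm.sign s : ℤ) : ℂ) * ((Perm.sign (s'⁻¹ * s) : ℤ) : ℂ) =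
            ((Perm.sign s' : ℤ) : ℂ) := by
          rw [Perm.sign_mul, Perm.sign_inv]
          push_cast
          rw [mul_comm, mul_assoc, sign_sq, mul_one]
        rw [h1]
        congr 2
        funext x
        simp
    rw [key]
    refine Submodule.smul_mem _ _ (Submodule.subset_span
      ⟨(s.trans t).trans (trE mu), ?_⟩)
    congr 1
    funext x
    exact (hs x).symm
  · have h0 : twW (fun x => (t x).1.1) (fun x => (t x).1.2) f = 0 := by
      unfold twW
      refine Finset.sum_eq_zero fun s hs => ?_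
      rw [mem_filter] at hs
      exact absurd ⟨s, hs.2⟩ h
    rw [h0]
    exact Submodule.zero_mem _

theorem tw_mem (mu : YoungDiagram) (t : X ≃ mu.cells) (v : WM X) :
    tw (fun x => (t x).1.1) (fun x => (t x).1.2) v ∈ Sp X mu.transpose := by
  unfold tw
  rw [Finsupp.linearCombination_apply]
  exact Submodule.sum_mem _ fun f _ => Submodule.smul_mem _ _ (twW_mem mu t f)

theorem twW_apply {R C : X → ℕ} (hinj : ∀ x y, R x = R y → C x = C y → x = y) {π : Perm X}
    (hπ : π ∈ stab C) :
    (twW R C (R ∘ ⇑(π⁻¹ : Perm X))) C = ((Perm.sign π : ℤ) : ℂ) := by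
  have hC : C ∘ ⇑(π⁻¹ : Perm X) = C := by
    funext x
    have := (mem_stab.1 hπ) (π⁻¹ x)
    simpa using this.symm
  unfold twW
  rw [Finsupp.finsetSum_apply, Finset.sum_eq_single_of_mem π⁻¹]
  · rw [Finsupp.smul_apply, smul_eq_mul, hC, Finsupp.single_eq_same, mul_one, Perm.sign_inv]
  · rw [mem_filter]
    exact ⟨mem_univ _, fun x => rfl⟩
  · intro s hs hne
    rw [mem_filter] at hs
    rw [Finsupp.smul_apply, Finsupp.single_apply, if_neg, smul_zero]
    intro hsC
    apply hne
    ext x
    apply hinj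
    · exact hs.2 x
    · have h1 := congrFun hsC x
      have h2 := congrFun hC x
      simp only [Function.comp_apply] at h1 h2
      rw [h1, h2]

theorem tw_polyt_ne {R C : X → ℕ} (hinj : ∀ x y, R x = R y → C x = C y → x = y) :
    tw R C (polyt C R) ≠ 0 := by
  intro h0
  have h1 : (tw R C (polyt C R)) C = ((stab C).card : ℂ) := by
    unfold polyt
    rw [map_sum, Finsupp.finsetSum_apply]
    rw [Finset.sum_congr rfl (g := fun _ => (1 : ℂ))]
    · simp
    · intro π hπ
      rw [map_smul, Finsupp.smul_apply, smul_eq_mul]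
      unfold tw
      rw [Finsupp.linearCombination_single, one_smul, twW_apply hinj hπ, sign_sq]
  rw [h0] at h1
  have h2 : (stab C).card ≠ 0 := by
    rw [Finset.card_ne_zero]
    exact ⟨1, mem_stab.2 fun x => rfl⟩
  have h3 : ((stab C).card : ℂ) ≠ 0 := by exact_mod_cast h2
  exact h3 h1.symm

theorem sp_stable (mu : YoungDiagram) (g : Perm X) {v : WM X} (hv : v ∈ Sp X mu) :
    wordRep X g v ∈ Sp X mu := by
  unfold Sp at hv ⊢
  induction hv using Submodule.span_induction with
  | mem v hv =>
    obtain ⟨t, rfl⟩ := hv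
    refine Submodule.subset_span ⟨(g⁻¹ : Perm X).trans t, ?_⟩
    rw [wordRep_polyt]
    rfl
  | zero => simp
  | add v w _ _ hv hw =>
    rw [map_add]
    exact Submodule.add_mem _ hv hw
  | smul a v _ hv =>
    rw [map_smul]
    exact Submodule.smul_mem _ _ hv

theorem pTw (hIrr : PIrr) : PTw := by
  intro X _ _ mu
  by_cases hne : Nonempty (X ≃ mu.cells)
  · obtain ⟨t⟩ := hne
    refine ⟨tw (fun x => (t x).1.1) (fun x => (t x).1.2), tw_wordRep _ _,
      fun v _ => tw_mem mu t v, ?_⟩
    set θ := tw (fun x => (t x).1.1) (fun x => (t x).1.2) with hθ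
    by_contra hcon
    push Not at hcon
    obtain ⟨v, hv, hv0, hvne⟩ := hcon
    have hV := hIrr X mu (Sp X mu ⊓ LinearMap.ker θ) inf_le_left (by
      intro g v hv
      refine ⟨sp_stable mu g hv.1, ?_⟩
      have h1 : θ v = 0 := hv.2
      change θ (wordRep X g v) = 0
      rw [hθ, tw_wordRep, ← hθ, h1, map_zero, smul_zero]) (by
      intro h0
      have : v ∈ (Sp X mu ⊓ LinearMap.ker θ : Submodule ℂ (WM X)) := ⟨hv, hv0⟩
      rw [h0, Submodule.mem_bot] at this
      exact hvne this)
    have hmem : polyt (fun x => (t x).1.2) (fun x => (t x).1.1) ∈ Sp X mu :=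
      Submodule.subset_span ⟨t, rfl⟩
    rw [← hV] at hmem
    refine tw_polyt_ne (R := fun x => (t x).1.1) (C := fun x => (t x).1.2) ?_ hmem.2
    intro x y h1 h2
    exact t.injective (Subtype.ext (Prod.ext h1 h2))
  · refine ⟨0, by simp, by simp, ?_⟩
    intro v hv _
    have : Sp X mu = ⊥ := by
      unfold Sp
      rw [Submodule.span_eq_bot]
      rintro v ⟨t, -⟩
      exact absurd ⟨t⟩ hne
    rw [this, Submodule.mem_bot] at hv
    exact hv

theorem exists_left {F G : Type} [AddCommGroup F] [Module ℂ F] [AddCommGroup G] [Module ℂ G]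
    (V : Submodule ℂ F) (θ : F →ₗ[ℂ] G) (h : ∀ v ∈ V, θ v = 0 → v = 0) :
    ∃ L : G →ₗ[ℂ] F, ∀ x ∈ V, L (θ x) = x := by
  obtain ⟨L, hL⟩ := LinearMap.exists_leftInverse_of_injective (θ.comp V.subtype) (by
    rw [LinearMap.ker_eq_bot']
    intro x hx
    exact Subtype.ext (h x.1 x.2 hx))
  refine ⟨V.subtype.comp L, fun x hx => ?_⟩
  have := LinearMap.congr_fun hL ⟨x, hx⟩
  exact congrArg Subtype.val this

theorem pOccT (hTw : PTw) : POccT := by
  rintro X _ _ mu rl cl ⟨b, v, hv, w, hw, hne⟩
  obtain ⟨θ, hθ, hmem, hinj⟩ := hTw X mu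
  obtain ⟨L, hL⟩ := exists_left (Sp X mu) θ hinj
  refine ⟨b.compl₁₂ L L, θ v, hmem v hv, θ w, hmem w hw, ?_⟩
  have hs : ∀ (h : Perm X) (x : WM X), wordRep X h (θ x) =
      ((Perm.sign h : ℤ) : ℂ) • θ (wordRep X h x) := by
    intro h x
    rw [hθ, smul_smul, sign_sq, one_smul]
  have hF : Fn (b.compl₁₂ L L) (θ v) (θ w) = Fn b v w := by
    funext h
    unfold Fn
    have h1 : L (wordRep X h (θ v)) = ((Perm.sign h : ℤ) : ℂ) • wordRep X h v := by
      rw [hs, map_smul, hL _ (sp_stable mu h hv)]
    have h2 : L (wordRep X h (θ w)) = ((Perm.sign h : ℤ) : ℂ) • wordRep X h w := by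
      rw [hs, map_smul, hL _ (sp_stable mu h hw)]
    rw [LinearMap.compl₁₂_apply, h1, h2, map_smul, map_smul, LinearMap.smul_apply, smul_smul,
      sign_sq, one_smul]
  rw [hF]
  exact hne

end

end Vale.Agent.P197.TS.H856
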